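import Vale.Agent.P193.W4.Common.Numbers
import Vale.Agent.P193.W4.Common.Scanning

/-!
P193, module W4.A (common layer): the effect of one more bit on what the scanning column records.
-/

noncomputable section

namespace Vale.Agent.P193.W4.Common.Scanning

open Vale.Agent.P193.W4.Common.Num

variable {C : Cfg}

/-- The comparison after `i` bits. -/
def cmpPre (t d i : ℕ) : Cmp :=
  ⟨decide (t % 2 ^ i = d % 2 ^ i), decide (t % 2 ^ i = (d + 1) % 2 ^ i),
    decide (d % 2 ^ i = 2 ^ i - 1)⟩

lemma testBit_two_mul_succ (x i : ℕ) : (2 * x).testBit (i + 1) = x.testBit i := by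
  rw [Nat.testBit_succ]; simp

lemma mod_succ_eq_iff (a c i : ℕ) :
    a % 2 ^ (i + 1) = c % 2 ^ (i + 1) ↔ a % 2 ^ i = c % 2 ^ i ∧ a.testBit i = c.testBit i := by
  have h1 := Nat.mod_lt a (Nat.two_pow_pos i)
  have h2 := Nat.mod_lt c (Nat.two_pow_pos i)
  rw [mod_two_pow_succ_bit, mod_two_pow_succ_bit]
  cases a.testBit i <;> cases c.testBit i <;> simp <;> omega

lemma eq_zero_succ (x i : ℕ) :
    decide (x % 2 ^ (i + 1) = 0) = (decide (x % 2 ^ i = 0) && !x.testBit i) := by
  rw [mod_two_pow_succ_bit]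
  cases x.testBit i <;> simp

lemma eq_top_succ (x i : ℕ) :
    decide (x % 2 ^ (i + 1) = 2 ^ (i + 1) - 1) =
      (decide (x % 2 ^ i = 2 ^ i - 1) && x.testBit i) := by
  have := Nat.mod_lt x (Nat.two_pow_pos i)
  rw [mod_two_pow_succ_bit, pow_succ]
  cases x.testBit i <;> simp <;> omega

lemma even_succ (x i : ℕ) :
    decide (x % 2 ^ (i + 1) % 2 = 0) =
      (decide (x % 2 ^ i % 2 = 0) && (decide (min i (B C + 1) ≠ 0) || !x.testBit i)) := by
  rw [mod_two_pow_succ_bit]
  rcases Nat.eq_zero_or_pos i with rfl | hi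
  · cases x.testBit 0 <;> simp [Nat.mod_one]
  · obtain ⟨j, rfl⟩ : ∃ j, i = j + 1 := ⟨i - 1, by omega⟩
    have h : decide (min (j + 1) (B C + 1) ≠ 0) = true := by simp
    rw [h, Bool.true_or, Bool.and_true]
    congr 1
    rw [pow_succ]
    cases x.testBit (j + 1) <;> simp [Nat.add_mod]

lemma decide_min_eq {n : ℕ} (hn : n ≤ B C) (i : ℕ) : decide (min i (B C + 1) = n) = decide (i = n) := by
  congr 1
  exact propext ⟨fun h => by omega, fun h => by omega⟩

lemma fixed_succ (x i n : ℕ) (hn : n ≤ B C) (v : Bool) :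
    decide (n < i + 1 → x.testBit n = v) =
      (decide (n < i → x.testBit n = v) &&
        (decide (min i (B C + 1) ≠ n) || (x.testBit i == v))) := by
  rw [decide_not, decide_min_eq hn]
  rcases lt_trichotomy n i with h | rfl | h
  · simp [h, Nat.lt_succ_of_lt h, h.ne']
  · cases x.testBit n <;> cases v <;> simp
  · simp [show ¬ n < i + 1 by omega, show ¬ n < i by omega, Nat.ne_of_lt h]

lemma small_succ (x i : ℕ) :
    decide (x % 2 ^ (i + 1) < 2 ^ B C) =
      (decide (x % 2 ^ i < 2 ^ B C) && (decide (min i (B C + 1) < B C) || !x.testBit i)) := by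
  have h1 := Nat.mod_lt x (Nat.two_pow_pos i)
  rw [mod_two_pow_succ_bit]
  by_cases hi : i < B C
  · have h3 : 2 ^ i * 2 ≤ 2 ^ B C := by rw [← pow_succ]; exact Nat.pow_le_pow_right (by norm_num) hi
    have hb : decide (min i (B C + 1) < B C) = true := by simp; omega
    rw [hb, Bool.true_or, Bool.and_true]
    cases x.testBit i <;> simp <;> omega
  · have h4 : 2 ^ B C ≤ 2 ^ i := Nat.pow_le_pow_right (by norm_num) (by omega)
    have hb : decide (min i (B C + 1) < B C) = false := by simp; omega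
    rw [hb, Bool.false_or]
    cases x.testBit i <;> simp
    omega

lemma regroup : ∀ a b c d e f g h : Bool,
    ((a && b) && ((c && d) && ((e && f) && (g && h)))) =
      ((a && (c && (e && g))) && b && d && f && h) := by decide

lemma zone_succ (x i : ℕ) :
    decide ((0 < i + 1 → x.testBit 0 = false) ∧ (1 < i + 1 → x.testBit 1 = true) ∧
        x % 2 ^ (i + 1) < 2 ^ B C ∧ (B C - 1 < i + 1 → x.testBit (B C - 1) = true)) =
      (decide ((0 < i → x.testBit 0 = false) ∧ (1 < i → x.testBit 1 = true) ∧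
          x % 2 ^ i < 2 ^ B C ∧ (B C - 1 < i → x.testBit (B C - 1) = true)) &&
        (decide (min i (B C + 1) ≠ 0) || !x.testBit i) &&
        (decide (min i (B C + 1) ≠ 1) || x.testBit i) &&
        (decide (min i (B C + 1) < B C) || !x.testBit i) &&
        (decide (min i (B C + 1) ≠ B C - 1) || x.testBit i)) := by
  have e0 : ∀ a : Bool, (a == false) = !a := by decide
  have e1 : ∀ a : Bool, (a == true) = a := by decide
  rw [Bool.decide_and, Bool.decide_and, Bool.decide_and, fixed_succ x i 0 (Nat.zero_le _) false,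
    fixed_succ x i 1 (by have := A_ge C; unfold B; omega) true, fixed_succ x i (B C - 1) (Nat.sub_le _ _) true,
    small_succ, e0, e1, Bool.decide_and, Bool.decide_and, Bool.decide_and]
  exact regroup _ _ _ _ _ _ _ _

lemma satAdd_min {n : ℕ} (hn : n ≤ 2 ^ (B C + 1)) (x i : ℕ) :
    (satAdd (n := n) ⟨min (x % 2 ^ i) n, by omega⟩ (min i (B C + 1)) (x.testBit i)).val =
      min (x % 2 ^ (i + 1)) n := by
  rw [mod_two_pow_succ_bit]
  cases x.testBit i
  · simp [satAdd]
  · simp only [satAdd, if_true]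
    by_cases h : min (min i (B C + 1)) (n + 1) = i
    · rw [h]; omega
    · have hlt : min (min i (B C + 1)) (n + 1) < i := by omega
      have h2 : 2 ^ min (min i (B C + 1)) (n + 1) ≤ 2 ^ i :=
        Nat.pow_le_pow_right (by norm_num) hlt.le
      have h3 : n ≤ 2 ^ min (min i (B C + 1)) (n + 1) := by
        rcases le_total (B C + 1) (n + 1) with h' | h'
        · rw [show min (min i (B C + 1)) (n + 1) = B C + 1 from by omega]; exact hn
        · rw [show min (min i (B C + 1)) (n + 1) = n + 1 from by omega]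
          exact (Nat.lt_two_pow_self).le.trans (Nat.pow_le_pow_right (by norm_num) (by omega))
      omega

lemma perExp_le_B (C : Cfg) : perExp C ≤ B C := by
  have h1 : 2 ^ perExp C ∣ A C := T_dvd_A C
  have h2 := Nat.le_of_dvd (by have := A_ge C; omega) h1
  have h3 := (Nat.lt_two_pow_self (n := perExp C)).le
  unfold B
  omega

lemma YB_le (C : Cfg) : YB C ≤ 2 ^ (B C + 1) := by
  have hA := A_ge C
  have hT : T C ≤ A C := Nat.le_of_dvd (by omega) (T_dvd_A C)
  have h1 : YB C ≤ A C * (64 * A C) := by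
    have := Nat.mul_le_mul_right (B C + 2) hT
    have e1 : A C * (B C + 2) = 32 * (A C * A C) + 4 * A C := by unfold B; ring
    have e2 : A C * (64 * A C) = 64 * (A C * A C) := by ring
    have e3 : A C ≤ A C * A C := Nat.le_mul_of_pos_left _ (by omega)
    unfold YB
    omega
  refine h1.trans ?_
  calc A C * (64 * A C) ≤ 2 ^ A C * (2 ^ 6 * 2 ^ A C) :=
        Nat.mul_le_mul Nat.lt_two_pow_self.le (Nat.mul_le_mul le_rfl Nat.lt_two_pow_self.le)
    _ = 2 ^ (A C + (6 + A C)) := by rw [← pow_add, ← pow_add]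
    _ ≤ 2 ^ (B C + 1) := Nat.pow_le_pow_right two_pos (by unfold B; omega)

lemma yhMod_succ (x i : ℕ) :
    (x % 2 ^ i % T C + if x.testBit i then 2 ^ min i (B C + 1) else 0) % T C =
      x % 2 ^ (i + 1) % T C := by
  have hp := perExp_le_B C
  rw [Nat.mod_add_mod, mod_two_pow_succ_bit]
  cases x.testBit i
  · simp
  · simp only [if_true]
    by_cases h : i ≤ B C + 1
    · rw [Nat.min_eq_left h]
    · have h1 : T C ∣ 2 ^ min i (B C + 1) := Nat.pow_dvd_pow 2 (by omega)
      have h2 : T C ∣ 2 ^ i := Nat.pow_dvd_pow 2 (by omega)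
      obtain ⟨a, ha⟩ := h1
      obtain ⟨c, hc⟩ := h2
      rw [ha, hc, Nat.add_mul_mod_self_left, Nat.add_mul_mod_self_left]

lemma half_succ (C : Cfg) (x i : ℕ) :
    (decide (0 < i + 1) && decide (x % 2 ^ (i + 1) = 2 ^ (i + 1) / 2)) =
      (decide (min (x % 2 ^ i) (YB C) = 0) && x.testBit i) := by
  have := Nat.mod_lt x (Nat.two_pow_pos i)
  have hY : 0 < YB C := lt_trans (by have := A_ge C; omega) (A_lt_YB C)
  rw [mod_two_pow_succ_bit, pow_succ]
  cases x.testBit i <;> simp <;> omega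

lemma testBit_mod_succ (x i n : ℕ) :
    (x % 2 ^ (i + 1)).testBit n =
      ((x % 2 ^ i).testBit n || (decide (i = n) && x.testBit i)) := by
  rw [Nat.testBit_mod_two_pow, Nat.testBit_mod_two_pow]
  rcases lt_trichotomy n i with h | rfl | h
  · simp [h, Nat.lt_succ_of_lt h, h.ne']
  · simp
  · simp [h.ne, Nat.not_lt.2 h.le, show ¬ n < i + 1 by omega]

lemma u1_succ (x i : ℕ) :
    decide (x % 2 ^ (i + 1) = 1 % 2 ^ (i + 1)) =
      (decide (x % 2 ^ i = 1 % 2 ^ i) && (x.testBit i == decide (min i (B C + 1) = 0))) := by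
  rw [decide_min_eq (Nat.zero_le _), Bool.decide_congr (mod_succ_eq_iff x 1 i), Bool.decide_and]
  congr 1
  rcases Nat.eq_zero_or_pos i with rfl | hi
  · simp
  · have : (1 : ℕ).testBit i = false := Nat.testBit_lt_two_pow (Nat.one_lt_two_pow (by omega))
    rw [this]
    cases x.testBit i <;> simp <;> omega

lemma eq_succ (a c i : ℕ) :
    decide (a % 2 ^ (i + 1) = c % 2 ^ (i + 1)) =
      (decide (a % 2 ^ i = c % 2 ^ i) && (a.testBit i == c.testBit i)) := by
  rw [Bool.decide_congr (mod_succ_eq_iff a c i), Bool.decide_and]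
  congr 1

lemma cmpPre_succ (t d i : ℕ) :
    cmpPre t d (i + 1) = (cmpPre t d i).step (t.testBit i) (d.testBit i) := by
  simp only [cmpPre, Cmp.step, eq_succ, eq_top_succ, testBit_succ_add]

lemma log_mod_succ {x i : ℕ} (h : x.testBit i = true) :
    x % 2 ^ (i + 1) ≠ 0 ∧ Nat.log 2 (x % 2 ^ (i + 1)) = i := by
  have h1 := Nat.mod_lt x (Nat.two_pow_pos i)
  rw [mod_two_pow_succ_bit, h]
  simp only [if_true]
  refine ⟨by have := Nat.two_pow_pos i; omega, ?_⟩
  refine (Nat.log_eq_iff (Or.inr ⟨one_lt_two, by have := Nat.two_pow_pos i; omega⟩)).2 ⟨by omega, ?_⟩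
  rw [pow_succ]
  omega

lemma mod_succ_of_clear {x i : ℕ} (h : x.testBit i = false) :
    x % 2 ^ (i + 1) = x % 2 ^ i := by
  rw [mod_two_pow_succ_bit, h]
  simp

end Vale.Agent.P193.W4.Common.Scanning
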