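import Vale.Agent.P193.W4.Common.Scan.Machine

/-!
P193, module W4.A (common layer): the state of the scanning column as a function of the numbers
shown to it, at every complete block of rows and at the last row.
-/

noncomputable section

namespace Vale.Agent.P193.W4.Common.Scanning

open Vale.Agent.P193.W4.Common.Num

variable {C : Cfg}

/-- The copy with the given code after `n` bits. -/
def copyPre (C : Cfg) (K n : ℕ) : Fin (2 ^ (A C - 2 - AF C)) :=
  ⟨K % 2 ^ n % 2 ^ (A C - 2 - AF C), Nat.mod_lt _ (Nat.two_pow_pos _)⟩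

/-- The row of the own tile according to the copied claims. -/
def copyK (C : Cfg) (K : ℕ) : ℕ :=
  (claimsOfCopy (C := C) (copyPre C K (A C - 2 - AF C)).val).elim 0 fun m => m.cy.yhC.val

/-- The tracks among the numbers shown. -/
def wNum (N : Guest → ℕ → ℕ) (r : Track C) : ℕ := N self (7 + r.val)

open Classical in
/-- The state of the scanning column after `i` bits of every number, the machine being that of
level `L`. -/
def pre (C : Cfg) (L : ℕ) (N : Guest → ℕ → ℕ) (K i : ℕ) : Carry C where
  copy := copyPre C K (A C - 2 - AF C)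
  i := ⟨min i (B C + 1), by omega⟩
  cy :=
    { yl0 := decide (N self 3 % 2 ^ i = 0)
      ymC := ⟨min (N self 4 % 2 ^ i) 3, by omega⟩
      yhC := ⟨min (N self 5 % 2 ^ i) (YB C), by omega⟩
      yhMod := ⟨N self 5 % 2 ^ i % T C, Nat.mod_lt _ (Nat.two_pow_pos _)⟩
      yhTop := decide (N self 5 % 2 ^ i = 2 ^ i - 1)
      yhHalf := decide (0 < i) && decide (N self 5 % 2 ^ i = 2 ^ i / 2) }
  s :=
    { cx :=
        { xl0 := decide (N self 0 % 2 ^ i = 0)
          xlTop := decide (N self 0 % 2 ^ i = 2 ^ i - 1)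
          xlEven := decide (N self 0 % 2 ^ i % 2 = 0)
          xlSmall := decide ((0 < i → (N self 0).testBit 0 = false) ∧
            (1 < i → (N self 0).testBit 1 = true) ∧
            N self 0 % 2 ^ i < 2 ^ B C ∧ (B C - 1 < i → (N self 0).testBit (B C - 1) = true))
          xmC := ⟨min (N self 1 % 2 ^ i) 8, by omega⟩
          xh0 := decide (N self 2 % 2 ^ i = 0) }
      cm :=
        { diag := decide (N self 0 % 2 ^ i = 2 * N self 5 % 2 ^ i)
          q := fun g => decide (copyK C K < A C) &&
            (N self 0 % 2 ^ i).testBit (32 * copyK C K + (gidx g).val + 2)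
          ql := decide (A C ≤ copyK C K) && decide (lidx C (copyK C K) < B C) &&
            (N self 0 % 2 ^ i).testBit (lidx C (copyK C K))
          u0 := decide (N self 6 % 2 ^ i = 0)
          u1 := decide (N self 6 % 2 ^ i = 1 % 2 ^ i) }
      yhBit := (2 * N self 5).testBit i
      xI := fun p => cmpPre (N self p.val) (N (axis 0) p.val) i
      yI := fun p => cmpPre (N self (3 + p.val)) (N (axis 1) (3 + p.val)) i
      eqs := decide (∀ τ < T C, ∀ a, eqAxis C τ a = true →
        N (axis a) τ % 2 ^ i = N self τ % 2 ^ i)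
      cu :=
        { uEq := decide (N self 6 % 2 ^ i = N (axis 1) 6 % 2 ^ i)
          uDbl := decide (N self 6 % 2 ^ i = 2 * N (axis 1) 6 % 2 ^ i)
          uPrev := (2 * N (axis 1) 6).testBit i }
      uBit := (2 * N self 6).testBit i
      ma := maPre C L (N self 6) i
      wa := waPre C (wNum N) (N self 6) i }

/-- The rows show the claims code `K` and the numbers `N` of the window of parents. -/
structure Reads (C : Cfg) (L : ℕ) (b : ℕ → Bits) (N : Guest → ℕ → ℕ) (K : ℕ) : Prop where
  claim : ∀ n, n < A C - 2 - AF C → b (AF C + n) self = K.testBit n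
  num : ∀ i, i ≤ L → ∀ τ, τ < T C → ∀ g, b (A C + T C * i + τ) g = (N g τ).testBit i

/-! ### The rows below the numbers -/

variable {L : ℕ} {b : ℕ → Bits} {N : Guest → ℕ → ℕ} {K : ℕ}

lemma scan_lt_AF (L : ℕ) (b : ℕ → Bits) : ∀ k, k < AF C → scan C L b k = Carry.init C
  | 0, h => by rw [scan, Carry.step, Carry.stepRow, if_pos h]
  | k + 1, h => by
    rw [scan, scan_lt_AF L b k (by omega), Carry.step, Carry.stepRow, if_pos h]

lemma scan_claims (hr : Reads C L b N K) : ∀ n, n ≤ A C - 2 - AF C →
    scan C L b (AF C - 1 + n) = { Carry.init C with copy := copyPre C K n }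
  | 0, _ => by
    have := (AF_lt C).1
    rw [Nat.add_zero, scan_lt_AF L b _ (by omega)]
    simp only [Carry.init, Carry.mk.injEq, and_true]
    refine Fin.ext ?_
    simp [copyPre, Nat.mod_one]
  | n + 1, hn => by
    have := (AF_lt C).1
    have hlt : AF C + n < A C - 2 := by omega
    have e : AF C - 1 + (n + 1) = (AF C - 1 + n) + 1 := rfl
    have e' : AF C - 1 + n + 1 = AF C + n := by omega
    rw [e, scan, scan_claims hr n (by omega), e', Carry.step, Carry.stepRow, if_neg (by omega),
      if_pos hlt, Nat.add_sub_cancel_left]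
    simp only [Carry.readClaim, Carry.mk.injEq, and_true]
    refine Fin.ext ?_
    show ((copyPre C K n).val + if b (AF C + n) self then 2 ^ n else 0) % 2 ^ (A C - 2 - AF C) = _
    rw [hr.claim n (by omega)]
    have h1 : K % 2 ^ n % 2 ^ (A C - 2 - AF C) = K % 2 ^ n :=
      Nat.mod_eq_of_lt (lt_of_lt_of_le (Nat.mod_lt _ (Nat.two_pow_pos n))
        (Nat.pow_le_pow_right (by norm_num) (by omega)))
    simp only [copyPre, h1, mod_two_pow_succ_bit]

lemma scan_base (hr : Reads C L b N K) : scan C L b (A C - 1) = pre C L N K 0 := by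
  have := AF_lt C
  obtain ⟨m, hm⟩ : ∃ m, m = AF C - 1 + (A C - 2 - AF C) := ⟨_, rfl⟩
  have e : A C - 1 = m + 1 + 1 := by omega
  rw [e, scan, scan, hm, scan_claims hr _ le_rfl, ← hm]
  have h1 : ∀ (c : Carry C) (k : ℕ), A C - 2 ≤ k → k < A C → c.step L k b = c := fun c k hk hk' => by
    rw [Carry.step, Carry.stepRow, if_neg (by omega), if_neg (by omega), if_pos hk']
  rw [h1 _ _ (by omega) (by omega), h1 _ _ (by omega) (by omega)]
  simp only [pre, Carry.init, Carry.mk.injEq, YClaims.mk.injEq, Scanned.mk.injEq, XClaims.mk.injEq,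
    MixClaims.mk.injEq, UAcc.mk.injEq, Fin.ext_iff, maPre_zero, waPre_zero, true_and]
  simp [cmpPre, Cmp.init, Nat.mod_one]

/-! ### One block -/

/-- The state after `n` rows of the block at index `i`. -/
def roundState (L : ℕ) (b : ℕ → Bits) (c : Carry C) (i : ℕ) : ℕ → Carry C
  | 0 => c
  | τ + 1 => (roundState L b c i τ).readNum τ (b (A C + T C * i + τ)) (scanMach C L i)

lemma scan_roundState (i : ℕ) (c : Carry C) (hc : scan C L b (A C - 1 + T C * i) = c) :
    ∀ τ, τ ≤ T C → scan C L b (A C - 1 + T C * i + τ) = roundState L b c i τ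
  | 0, _ => hc
  | τ + 1, hτ => by
    have hA := A_ge C
    have e : A C - 1 + T C * i + (τ + 1) = (A C - 1 + T C * i + τ) + 1 := rfl
    have e' : A C - 1 + T C * i + τ + 1 = A C + T C * i + τ := by omega
    rw [e, scan, scan_roundState i c hc τ (by omega), e', roundState, Carry.step, Carry.stepRow,
      if_neg (by have := AF_lt C; omega), if_neg (by omega), if_neg (by omega),
      show A C + T C * i + τ - A C = τ + T C * i by omega, Nat.add_mul_mod_self_left,
      Nat.mod_mod, Nat.mod_eq_of_lt (show τ < T C by omega), Nat.add_mul_div_left _ _ (T_pos C),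
      Nat.div_eq_of_lt (show τ < T C by omega), Nat.zero_add]

lemma compare_high (c : Carry C) {τ : ℕ} (hτ : 7 ≤ τ) (g : Bits) :
    c.compare τ g = { c with s := { c.s with
      eqs := c.s.eqs && decide (∀ a, eqAxis C τ a = true → g (axis a) = g self) } } := by
  rw [Carry.compare]
  simp [show ¬ τ < 3 by omega, show ¬ τ < 6 by omega]

lemma cmpUpd_three (f g : Fin 3 → Cmp) (t d : Fin 3 → Bool)
    (h : ∀ p, g p = (f p).step (t p) (d p)) :
    cmpUpd (cmpUpd (cmpUpd f 0 (t 0) (d 0)) 1 (t 1) (d 1)) 2 (t 2) (d 2) = g := by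
  funext p
  fin_cases p <;> simp [cmpUpd, h]

lemma decide_forall_lt_succ (n : ℕ) (p : ℕ → Prop) [DecidablePred p] :
    decide (∀ τ < n + 1, p τ) = (decide (∀ τ < n, p τ) && decide (p n)) := by
  rw [← Bool.decide_and]
  refine decide_eq_decide.2 ⟨fun h => ⟨fun τ hτ => h τ (by omega), h n (by omega)⟩, fun h τ hτ => ?_⟩
  rcases Nat.lt_succ_iff_lt_or_eq.1 hτ with hτ | rfl
  · exact h.1 τ hτ
  · exact h.2

/-- The agreement of the bits at index `i` required of the number of type `τ`. -/
abbrev BitEq (C : Cfg) (N : Guest → ℕ → ℕ) (i τ : ℕ) : Prop :=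
  ∀ a, eqAxis C τ a = true → (N (axis a) τ).testBit i = (N self τ).testBit i

/-- The state after the first seven rows of a block, with the word and the comparisons of equal
numbers left open. -/
def headOf (C : Cfg) (L : ℕ) (N : Guest → ℕ → ℕ) (K i : ℕ) (e : Bool) (w : WAcc C) : Carry C :=
  { pre C L N K (i + 1) with
    i := (pre C L N K i).i
    s := { (pre C L N K (i + 1)).s with eqs := e, wa := w } }

lemma round_head (hr : Reads C L b N K) (hL : L₀ C ≤ L) {i : ℕ} (hi : i ≤ L) :
    roundState L b (pre C L N K i) i 7 =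
      headOf C L N K i ((pre C L N K i).s.eqs && decide (∀ τ < (7 : ℕ), BitEq C N i τ))
        (pre C L N K i).s.wa := by
  classical
  have hT := T_ge C
  have rr : ∀ τ, τ < 7 → ∀ g, b (A C + T C * i + τ) g = (N g τ).testBit i :=
    fun τ h g => hr.num i hi τ (by omega) g
  simp only [roundState]
  obtain ⟨G, hG⟩ : ∃ G : ℕ → Bits, ∀ τ, b (A C + T C * i + τ) = G τ := ⟨_, fun _ => rfl⟩
  simp only [hG] at rr ⊢
  simp only [Carry.readNum, Carry.compare]
  simp only [Nat.reduceLT, Nat.reduceLeDiff, and_true, true_and, false_and, and_false, ↓reduceDIte,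
    Nat.reduceSub, Fin.reduceFinMk]
  simp (disch := norm_num) only [rr]
  simp only [headOf, pre, Carry.mk.injEq, Scanned.mk.injEq, XClaims.mk.injEq, YClaims.mk.injEq,
    MixClaims.mk.injEq, UAcc.mk.injEq, true_and, and_true]
  have h8 : 8 ≤ 2 ^ (B C + 1) :=
    le_trans (by norm_num : 8 ≤ 2 ^ 3) (Nat.pow_le_pow_right (by norm_num) (show 3 ≤ B C + 1 by
      have := A_ge C; unfold B; omega))
  refine ⟨⟨(eq_zero_succ _ _).symm, Fin.ext (satAdd_min ((show 3 ≤ 8 by norm_num).trans h8) _ _),
      Fin.ext (satAdd_min (YB_le C) _ _), Fin.ext (yhMod_succ _ _), (eq_top_succ _ _).symm,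
      (half_succ C _ _).symm⟩,
    ⟨(eq_zero_succ _ _).symm, (eq_top_succ _ _).symm, (even_succ _ _).symm,
      (zone_succ _ _).symm, Fin.ext (satAdd_min h8 _ _), (eq_zero_succ _ _).symm⟩,
    ⟨by rw [eq_succ, Bool.beq_comm], ?_, ?_, (eq_zero_succ _ _).symm, (u1_succ _ _).symm⟩,
    (testBit_two_mul_succ _ _).symm, ?_, ?_, ?_,
    ⟨(eq_succ _ _ _).symm, (eq_succ _ _ _).symm, (testBit_two_mul_succ _ _).symm⟩,
    (testBit_two_mul_succ _ _).symm, ?_⟩
  · funext g
    show (decide (copyK C K < A C) && _ || decide (copyK C K < A C) &&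
      decide (min i (B C + 1) = 32 * copyK C K + (gidx g).val + 2) && _) = _
    rw [testBit_mod_succ]
    by_cases hk : copyK C K < A C
    · rw [decide_min_eq (by have := (gidx g).isLt; unfold B; omega)]
      simp [hk]
    · simp [hk]
  · show (_ || decide (A C ≤ copyK C K) && decide (lidx C (copyK C K) < B C) &&
      decide (min i (B C + 1) = lidx C (copyK C K)) && _) = _
    rw [testBit_mod_succ]
    by_cases hl : lidx C (copyK C K) < B C
    · rw [decide_min_eq hl.le]
      cases decide (A C ≤ copyK C K) <;> simp [hl]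
    · simp [hl]
  · refine cmpUpd_three _ _ ![_, _, _] ![_, _, _] (fun p => ?_)
    fin_cases p <;> exact cmpPre_succ _ _ _
  · refine cmpUpd_three _ _ ![_, _, _] ![_, _, _] (fun p => ?_)
    fin_cases p <;> exact cmpPre_succ _ _ _
  · simp only [decide_forall_lt_succ, BitEq]
    simp [Bool.and_assoc]
  · exact maPre_succ hL hi _

lemma round_word (hr : Reads C L b N K) (hL : L₀ C ≤ L) {i : ℕ} (hi : i ≤ L) :
    ∀ n, n ≤ C.k + 2 → roundState L b (pre C L N K i) i (7 + n) =
      headOf C L N K i ((pre C L N K i).s.eqs && decide (∀ τ < 7 + n, BitEq C N i τ))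
        (blockW (waPre C (wNum N) (N self 6) i) (fun r => (wNum N r).testBit i)
          (decide (L₀ C ≤ i)) (decide (i = L₀ C)) ((N self 6).testBit i) n)
  | 0, _ => by rw [blockW_zero, Nat.add_zero]; exact round_head hr hL hi
  | n + 1, hn => by
    have hT := T_ge C
    have hlt : n < C.k + 2 := by omega
    rw [← Nat.add_assoc, roundState, decide_forall_lt_succ, blockW_succ _ _ _ _ _ hlt,
      round_word hr hL hi n (by omega), Nat.add_comm 7 n]
    have rr := fun g => hr.num i hi (n + 7) (by omega) g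
    unfold Carry.readNum
    simp only [compare_high _ (show 7 ≤ n + 7 by omega), rr, dif_pos hlt]
    simp only [headOf, pre, maPre, wNum, Nat.add_comm 7 n, testBit_two_mul_succ, curSt,
      Nat.add_sub_cancel, Bool.and_assoc, BitEq]
    have e1 : ((if L₀ C < i + 1 then some (cellAt C L (i - L₀ C)) else none).isSome) =
        decide (L₀ C ≤ i) := by
      by_cases h : L₀ C ≤ i
      · simp [h, show L₀ C < i + 1 by omega]
      · simp [h, show ¬ L₀ C < i + 1 by omega]
    have e2 : ((if L₀ C < i then some (cellAt C L (i - 1 - L₀ C)) else none).isNone &&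
        decide (L₀ C ≤ i)) = decide (i = L₀ C) := by
      rcases lt_trichotomy i (L₀ C) with h | h | h
      · simp [show ¬ L₀ C ≤ i by omega, show i ≠ L₀ C by omega]
      · simp [h]
      · simp [h, show i ≠ L₀ C by omega]
    simp only [e1, e2]

lemma round_spare (hr : Reads C L b N K) (hL : L₀ C ≤ L) {i : ℕ} (hi : i ≤ L) :
    ∀ n, 7 + (C.k + 2) + n < T C → roundState L b (pre C L N K i) i (7 + (C.k + 2) + n) =
      headOf C L N K i
        ((pre C L N K i).s.eqs && decide (∀ τ < 7 + (C.k + 2) + n, BitEq C N i τ))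
        (waPre C (wNum N) (N self 6) (i + 1))
  | 0, _ => by rw [Nat.add_zero, round_word hr hL hi _ le_rfl, waPre_succ]
  | n + 1, hn => by
    rw [← Nat.add_assoc, roundState, round_spare hr hL hi n (by omega), decide_forall_lt_succ,
      show 7 + (C.k + 2) + n = C.k + 2 + n + 7 by omega]
    have rr := fun g => hr.num i hi (C.k + 2 + n + 7) (by omega) g
    unfold Carry.readNum
    simp only [compare_high _ (show 7 ≤ C.k + 2 + n + 7 by omega), rr,
      dif_neg (show ¬ C.k + 2 + n < C.k + 2 by omega),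
      if_neg (show ¬ C.k + 2 + n + 8 = T C by omega)]
    simp only [headOf, Bool.and_assoc, BitEq]

lemma pre_succ (hr : Reads C L b N K) (hL : L₀ C ≤ L) {i : ℕ} (hi : i ≤ L) :
    roundState L b (pre C L N K i) i (T C) = pre C L N K (i + 1) := by
  have hT := T_ge C
  obtain ⟨n, hn⟩ : ∃ n, T C = 7 + (C.k + 2) + n + 1 := ⟨T C - (7 + (C.k + 2) + 1), by omega⟩
  have e : T C = C.k + 2 + n + 8 := by omega
  rw [show roundState L b (pre C L N K i) i (T C) =
      (roundState L b (pre C L N K i) i (7 + (C.k + 2) + n)).readNum (C.k + 2 + n + 7)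
        (b (A C + T C * i + (C.k + 2 + n + 7))) (scanMach C L i) by
    conv_lhs => rw [hn, roundState, show 7 + (C.k + 2) + n = C.k + 2 + n + 7 by omega]
    rw [show 7 + (C.k + 2) + n = C.k + 2 + n + 7 by omega],
    round_spare hr hL hi n (by omega)]
  have rr := fun g => hr.num i hi (C.k + 2 + n + 7) (by omega) g
  unfold Carry.readNum
  simp only [compare_high _ (show 7 ≤ C.k + 2 + n + 7 by omega), rr,
    dif_neg (show ¬ C.k + 2 + n < C.k + 2 by omega), if_pos e.symm]
  simp only [headOf, pre, Carry.mk.injEq, Scanned.mk.injEq, true_and, and_true]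
  refine ⟨Fin.ext (show min (min i (B C + 1) + 1) (B C + 1) = min (i + 1) (B C + 1) by omega), ?_⟩
  rw [show 7 + (C.k + 2) + n = C.k + 2 + n + 7 by omega, Bool.eq_iff_iff]
  simp only [Bool.and_eq_true, decide_eq_true_iff, and_assoc]
  constructor
  · rintro ⟨h1, h2, h3⟩ τ hτ a ha
    refine (mod_succ_eq_iff _ _ _).2 ⟨h1 τ hτ a ha, ?_⟩
    rcases Nat.lt_or_ge τ (C.k + 2 + n + 7) with h | h
    · exact h2 τ h a ha
    · obtain rfl : τ = C.k + 2 + n + 7 := by omega
      exact h3 a ha
  · intro h
    exact ⟨fun τ hτ a ha => ((mod_succ_eq_iff _ _ _).1 (h τ hτ a ha)).1,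
      fun τ hτ a ha => ((mod_succ_eq_iff _ _ _).1 (h τ (by omega) a ha)).2,
      fun a ha => ((mod_succ_eq_iff _ _ _).1 (h _ (by omega) a ha)).2⟩

/-- The state after every complete block of rows. -/
theorem scan_block (hr : Reads C L b N K) (hL : L₀ C ≤ L) :
    ∀ i, i ≤ L + 1 → scan C L b (A C - 1 + T C * i) = pre C L N K i
  | 0, _ => by rw [Nat.mul_zero, Nat.add_zero]; exact scan_base hr
  | i + 1, h => by
    have e : A C - 1 + T C * (i + 1) = A C - 1 + T C * i + T C := by
      rw [Nat.mul_add, Nat.mul_one]; omega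
    rw [e, scan_roundState i _ (scan_block hr hL i (by omega)) (T C) le_rfl,
      pre_succ hr hL (by omega)]

/-- The state at the last row. -/
theorem scan_lastK (hr : Reads C L b N K) (hL : L₀ C ≤ L) :
    scan C L b (lastK C L) = pre C L N K (L + 1) := by
  have e : lastK C L = A C - 1 + T C * (L + 1) := by
    have := A_ge C
    have := T_pos C
    unfold lastK
    rw [Nat.mul_add, Nat.mul_one]
    omega
  rw [e, scan_block hr hL (L + 1) le_rfl]

end Vale.Agent.P193.W4.Common.Scanning
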