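import Vale.Agent.P193.W4.Common.Scan.Bits

/-!
P193, module W4.A (common layer): what the scanning column records of the machine and of the word.
From the machine of level `L` it computes that of level `L + 1`.
-/

noncomputable section

namespace Vale.Agent.P193.W4.Common.Scanning

open Vale.Agent.P193.W4.Common.Num

variable {C : Cfg}

/-! ### The rows -/

/-- The cell of the next time is the step of three cells. -/
lemma cellAt_succ {L : ℕ} (hL : L₀ C ≤ L) (j : ℕ) :
    cellAt C (L + 1) j = C.R.step (if j = 0 then none else some (cellAt C L (j - 1)))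
      (cellAt C L j) (some (cellAt C L (j + 1))) := by
  unfold cellAt
  rw [show L + 1 - L₀ C = (L - L₀ C) + 1 by omega, Machine.EnumRule.row]

lemma cellAt_fresh {L j : ℕ} (h : L - L₀ C < j) : cellAt C L j = C.R.blank := C.fresh _ _ h

lemma aliveAt_zero (L : ℕ) : aliveAt C L 0 = (C.R.read (cellAt C L 0)).isSome := by
  rw [Bool.eq_iff_iff, aliveAt, decide_eq_true_iff]
  exact ⟨fun h => h 0 (by omega), fun h j hj => by rw [show j = 0 by omega]; exact h⟩

lemma aliveAt_succ (L j : ℕ) :
    aliveAt C L (j + 1) = (aliveAt C L j && (C.R.read (cellAt C L (j + 1))).isSome) := by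
  rw [Bool.eq_iff_iff, Bool.and_eq_true, aliveAt, aliveAt, decide_eq_true_iff, decide_eq_true_iff]
  refine ⟨fun h => ⟨fun i hi => h i (by omega), h _ (by omega)⟩, fun h i hi => ?_⟩
  rcases Nat.lt_succ_iff_lt_or_eq.1 hi with hi | rfl
  · exact h.1 i hi
  · exact h.2

/-! ### The machine -/

variable (C) in
/-- The last cell seen after `i` indices. -/
def curSt (L i : ℕ) : Option C.α :=
  if L₀ C < i then some (cellAt C L (i - 1 - L₀ C)) else none

variable (C) in
/-- What is recorded of the machine after `i` indices, the own counter being `u`. -/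
def maPre (L u i : ℕ) : MAcc C where
  prev := curSt C L (i - 1)
  cur := curSt C L i
  next := if L₀ C ≤ i then some (cellAt C L (i - L₀ C)) else none
  cell := curSt C (L + 1) i
  alive := decide (L₀ C < i) && aliveAt C (L + 1) (i - 1 - L₀ C)
  res :=
    { cur := if u % 2 ^ i = 0 then none else (machAt C (L + 1) (Nat.log 2 (u % 2 ^ i))).cur
      next := if u % 2 ^ (i - 1) = 0 then none
        else (machAt C (L + 1) (Nat.log 2 (u % 2 ^ (i - 1)))).next
      alive := decide (u % 2 ^ i ≠ 0) && (machAt C (L + 1) (Nat.log 2 (u % 2 ^ i))).alive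
      em := decide (L₀ C < i) && emitAt C (L + 1) }

lemma L₀_pos (C : Cfg) : 0 < L₀ C := by have := le_L₀ C; omega

lemma maPre_zero (L u : ℕ) : maPre C L u 0 = MAcc.init := by
  have := L₀_pos C
  simp [maPre, MAcc.init, curSt, Nat.mod_one, show ¬ L₀ C ≤ 0 by omega]

/-- The machine after one more index. -/
theorem maPre_succ {L i : ℕ} (hL : L₀ C ≤ L) (hi : i ≤ L) (u : ℕ) :
    ((maPre C L u i).advance (scanMach C L i) ((2 * u).testBit i)).mark (u.testBit i) =
      maPre C L u (i + 1) := by
  have hcur : (scanMach C L i).elim (maPre C L u i).next Mach.cur = curSt C L (i + 1) := by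
    unfold scanMach
    by_cases h : i < L
    · rw [if_pos h]
      simp only [Option.elim, machAt, curSt, Nat.add_sub_cancel]
      exact if_congr (by omega) rfl rfl
    · rw [if_neg h]
      simp only [Option.elim, maPre, curSt, Nat.add_sub_cancel]
      exact if_congr (by omega) rfl rfl
  have hnext : (scanMach C L i).elim (some C.R.blank) Mach.next =
      if L₀ C ≤ i + 1 then some (cellAt C L (i + 1 - L₀ C)) else none := by
    unfold scanMach
    by_cases h : i < L
    · rw [if_pos h]; rfl
    · rw [if_neg h, if_pos (show L₀ C ≤ i + 1 by omega), cellAt_fresh (by omega)]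
      rfl
  have hcell : ((curSt C L (i + 1)).map fun a => C.R.step (curSt C L i) a
      (if L₀ C ≤ i + 1 then some (cellAt C L (i + 1 - L₀ C)) else none)) =
        curSt C (L + 1) (i + 1) := by
    simp only [curSt, Nat.add_sub_cancel]
    by_cases h : L₀ C < i + 1
    · rw [if_pos h, if_pos h, Option.map_some, cellAt_succ hL, if_pos (show L₀ C ≤ i + 1 by omega),
        show i + 1 - L₀ C = i - L₀ C + 1 by omega]
      congr 2
      by_cases h' : L₀ C < i
      · rw [if_pos h', if_neg (by omega), show i - 1 - L₀ C = i - L₀ C - 1 by omega]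
      · rw [if_neg h', if_pos (by omega)]
    · rw [if_neg h, if_neg h]; rfl
  have halive : ((curSt C (L + 1) (i + 1)).elim false fun a =>
      (if (curSt C (L + 1) i).isSome then
          decide (L₀ C < i) && aliveAt C (L + 1) (i - 1 - L₀ C)
        else true) && (C.R.read a).isSome) =
      (decide (L₀ C ≤ i) && aliveAt C (L + 1) (i - L₀ C)) := by
    simp only [curSt, Nat.add_sub_cancel]
    by_cases h : L₀ C < i + 1
    · rw [if_pos h]
      by_cases h' : L₀ C < i
      · rw [show i - L₀ C = i - 1 - L₀ C + 1 by omega, aliveAt_succ]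
        simp [h', show L₀ C ≤ i by omega]
      · rw [show i - L₀ C = 0 by omega, aliveAt_zero]
        simp [h', show L₀ C ≤ i by omega]
    · simp [h, show ¬ L₀ C ≤ i by omega]
  have hnx : (if (2 * u).testBit i then curSt C (L + 1) (i + 1)
      else if u % 2 ^ (i - 1) = 0 then none
        else (machAt C (L + 1) (Nat.log 2 (u % 2 ^ (i - 1)))).next) =
      if u % 2 ^ i = 0 then none else (machAt C (L + 1) (Nat.log 2 (u % 2 ^ i))).next := by
    rcases i with _ | j
    · simp [Nat.mod_one]
    · rw [testBit_two_mul_succ, Nat.add_sub_cancel]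
      cases hb : u.testBit j
      · rw [mod_succ_of_clear hb]; simp
      · obtain ⟨h1, h2⟩ := log_mod_succ hb
        rw [if_neg h1, h2]
        simp only [if_true, machAt, curSt, Nat.add_sub_cancel]
        exact if_congr (by omega) rfl rfl
  have hem : (if (curSt C L i).isNone then
      (curSt C (L + 1) (i + 1)).elim (decide (L₀ C < i) && emitAt C (L + 1)) C.R.emit
      else decide (L₀ C < i) && emitAt C (L + 1)) =
      (decide (L₀ C < i + 1) && emitAt C (L + 1)) := by
    simp only [curSt, Nat.add_sub_cancel]
    by_cases h' : L₀ C < i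
    · simp [h', show L₀ C < i + 1 by omega]
    · by_cases h : L₀ C < i + 1
      · simp [h', h, emitAt, show i - L₀ C = 0 by omega]
      · simp [h', h]
  simp only [MAcc.advance, hcur, hnext]
  simp only [maPre, hcell, hnx, hem, Nat.lt_succ_iff]
  erw [halive]
  unfold MAcc.mark
  cases hb : u.testBit i
  · simp [mod_succ_of_clear hb]
  · obtain ⟨h1, h2⟩ := log_mod_succ hb
    simp only [if_true, if_neg h1, h2, Nat.add_sub_cancel, MAcc.mk.injEq, Mach.mk.injEq]
    refine ⟨trivial, trivial, trivial, trivial, trivial, ?_, trivial, ?_, trivial⟩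
    · simp only [machAt, curSt, Nat.add_sub_cancel]
      exact if_congr (by omega) rfl rfl
    · simp only [h1, machAt, ne_eq, not_false_eq_true, decide_true, Bool.true_and]

/-- The machine claim found at the end of the column. -/
theorem maPre_result {L u : ℕ} (hL : L₀ C ≤ L) (hu : u < 2 ^ (L + 1)) (h0 : u ≠ 0) :
    (maPre C L u (L + 1)).result ((2 * u).testBit (L + 1)) =
      machAt C (L + 1) (Nat.log 2 u) := by
  have e := Nat.mod_eq_of_lt hu
  rw [testBit_two_mul_succ]
  cases hb : u.testBit L
  · have e' : u % 2 ^ L = u := by rw [← mod_succ_of_clear hb, e]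
    simp [MAcc.result, maPre, machAt, h0, e, e', show L₀ C < L + 1 by omega]
  · have hl : Nat.log 2 u = L := by
      have := (log_mod_succ hb).2
      rwa [e] at this
    simp only [MAcc.result, maPre, machAt, h0, e, if_true, if_false, hl, curSt, hL,
      show L₀ C < L + 1 by omega, show L₀ C ≤ L + 1 by omega, Option.map_some, decide_true,
      ne_eq, not_false_eq_true, Bool.true_and, Nat.add_sub_cancel, Mach.mk.injEq, and_true,
      true_and, Option.some.injEq]
    rw [show L + 1 - L₀ C = L - L₀ C + 1 by omega, cellAt_succ hL, if_neg (by omega),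
      Nat.add_sub_cancel, cellAt_fresh (show L - L₀ C < L - L₀ C + 1 by omega),
      cellAt_fresh (show L - L₀ C < L - L₀ C + 1 + 1 by omega)]

/-! ### The word -/

variable (C) in
/-- The bits at index `j` may be those of a letter. -/
def LetterOK (W : Track C → ℕ) (j : ℕ) : Prop :=
  (∀ r, (W r).testBit j = true → L₀ C ≤ j) ∧ ((W 0).testBit j = true → j ≠ L₀ C) ∧
    (∀ r, r ≠ 0 → (W 0).testBit j = true → (W r).testBit j = false) ∧
    ((2 * W 0).testBit j = true → (W 0).testBit j = true)

open Classical in
/-- What is recorded of the word after `i` indices. -/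
def waPre (C : Cfg) (W : Track C → ℕ) (u i : ℕ) : WAcc C where
  letter r := (2 * W r).testBit i
  star := (2 * W 0).testBit i
  ok := decide (∀ j < i, LetterOK C W j)
  zero := decide (∀ r, W r % 2 ^ i = 0)
  wd r := decide (u % 2 ^ i ≠ 0) && (W r).testBit (Nat.log 2 (u % 2 ^ i))

lemma waPre_zero (W : Track C → ℕ) (u : ℕ) : waPre C W u 0 = WAcc.init := by
  simp [waPre, WAcc.init, Nat.mod_one]

/-- What is recorded of a letter once its first `n` tracks are read. -/
def blockW (w : WAcc C) (bit : Track C → Bool) (cell first hit : Bool) (n : ℕ) : WAcc C where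
  letter r := if r.val < n then bit r else w.letter r
  star := if 0 < n then bit 0 else w.star
  ok := w.ok && decide (∀ r : Track C, r.val < n →
    ((cell || !bit r) && if r = 0 then (!w.star || bit r) && (!first || !bit r)
      else !(bit 0 && bit r)) = true)
  zero := w.zero && decide (∀ r : Track C, r.val < n → bit r = false)
  wd r := if hit ∧ r.val < n then bit r else w.wd r

lemma blockW_zero (w : WAcc C) (bit : Track C → Bool) (cell first hit : Bool) :
    blockW w bit cell first hit 0 = w := by
  simp [blockW]

lemma forall_lt_succ {n : ℕ} (hn : n < C.k + 2) (p : Track C → Prop) :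
    (∀ r : Track C, r.val < n + 1 → p r) ↔ (∀ r : Track C, r.val < n → p r) ∧ p ⟨n, hn⟩ := by
  refine ⟨fun h => ⟨fun r hr => h r (by omega), h _ (by simp)⟩, fun h r hr => ?_⟩
  rcases Nat.lt_succ_iff_lt_or_eq.1 hr with hr | hr
  · exact h.1 r hr
  · obtain rfl : r = ⟨n, hn⟩ := Fin.ext hr
    exact h.2

lemma blockW_succ (w : WAcc C) (bit : Track C → Bool) (cell first hit : Bool) {n : ℕ}
    (hn : n < C.k + 2) :
    blockW w bit cell first hit (n + 1) =
      (blockW w bit cell first hit n).read ⟨n, hn⟩ (bit ⟨n, hn⟩) cell first hit := by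
  have h0 : (⟨n, hn⟩ : Track C) = 0 ↔ n = 0 := by rw [Fin.ext_iff, Fin.val_zero]
  have upd : ∀ (r : Track C) (f : Track C → Bool) (a : Bool),
      Function.update f (⟨n, hn⟩ : Track C) a r = if r.val = n then a else f r := fun r f a => by
    rw [Function.update_apply]
    exact if_congr Fin.ext_iff rfl rfl
  simp only [blockW, WAcc.read, WAcc.mk.injEq]
  refine ⟨funext fun r => ?_, ?_, ?_, ?_, ?_⟩
  · rw [upd]
    rcases lt_trichotomy r.val n with h | h | h
    · rw [if_pos (by omega), if_neg (by omega), if_pos h]
    · obtain rfl : r = ⟨n, hn⟩ := Fin.ext h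
      simp
    · rw [if_neg (by omega), if_neg (by omega), if_neg (by omega)]
  · rcases Nat.eq_zero_or_pos n with rfl | h
    · simp
    · simp [h, h0, show n ≠ 0 by omega]
  · rw [Bool.decide_congr (forall_lt_succ hn _), Bool.decide_and]
    rcases Nat.eq_zero_or_pos n with rfl | h
    · simp [Bool.and_assoc]
    · simp [h, h0, show n ≠ 0 by omega, Bool.and_assoc]
  · rw [Bool.decide_congr (forall_lt_succ hn _), Bool.decide_and]
    simp [Bool.and_assoc]
  · funext r
    cases hit
    · simp
    · simp only [if_true]
      rw [upd]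
      rcases lt_trichotomy r.val n with h | h | h
      · rw [if_pos ⟨trivial, by omega⟩, if_neg (by omega), if_pos ⟨trivial, h⟩]
      · obtain rfl : r = ⟨n, hn⟩ := Fin.ext h
        simp
      · rw [if_neg (by omega), if_neg (by omega), if_neg (by omega)]

/-- The word after one more index. -/
theorem waPre_succ (W : Track C → ℕ) (u i : ℕ) :
    blockW (waPre C W u i) (fun r => (W r).testBit i) (decide (L₀ C ≤ i)) (decide (i = L₀ C))
        (u.testBit i) (C.k + 2) = waPre C W u (i + 1) := by
  classical
  simp only [blockW, waPre, WAcc.mk.injEq]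
  refine ⟨funext fun r => ?_, ?_, ?_, ?_, funext fun r => ?_⟩
  · rw [if_pos r.isLt, testBit_two_mul_succ]
  · rw [if_pos (Nat.succ_pos _), testBit_two_mul_succ]
  · rw [Bool.eq_iff_iff]
    simp only [Bool.and_eq_true, decide_eq_true_iff]
    constructor
    · rintro ⟨h1, h2⟩ j hj
      rcases Nat.lt_succ_iff_lt_or_eq.1 hj with hj | rfl
      · exact h1 j hj
      refine ⟨fun r hr => ?_, fun hr => ?_, fun r h0 hr => ?_, fun hr => ?_⟩
      · have := h2 r r.isLt
        simp [hr] at this
        exact this.1
      · have := h2 0 (Nat.succ_pos _)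
        simp [hr] at this
        exact this.2
      · have := h2 r r.isLt
        simp [h0, hr] at this
        exact this.2
      · have := h2 0 (Nat.succ_pos _)
        simp [hr] at this
        exact this.2.1
    · intro h
      refine ⟨fun j hj => h j (by omega), fun r _ => ?_⟩
      obtain ⟨a, b, c, d⟩ := h i (Nat.lt_succ_self i)
      have a' := a r
      by_cases h0 : r = 0
      · subst h0
        revert a' b d
        cases (W 0).testBit i <;> cases (2 * W 0).testBit i <;> simp +contextual
      · have c' := c r h0
        revert a' c'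
        rw [if_neg h0]
        cases (W 0).testBit i <;> cases (W r).testBit i <;> simp
  · rw [Bool.eq_iff_iff]
    simp only [Bool.and_eq_true, decide_eq_true_iff]
    refine ⟨fun h r => ?_, fun h => ⟨fun r => ?_, fun r _ => ?_⟩⟩
    · rw [mod_succ_of_clear (h.2 r r.isLt)]
      exact h.1 r
    · have := h r
      rw [mod_two_pow_succ_bit] at this
      omega
    · have := h r
      rw [mod_two_pow_succ_bit] at this
      cases hb : (W r).testBit i
      · rfl
      · rw [hb, if_pos rfl] at this
        have := Nat.two_pow_pos i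
        omega
  · cases hb : u.testBit i
    · simp [mod_succ_of_clear hb]
    · obtain ⟨h1, h2⟩ := log_mod_succ hb
      simp [h1, h2, r.isLt]

end Vale.Agent.P193.W4.Common.Scanning
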